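import Vale.Agent.P046.Full.Iter.Stages

/-!
# The depth recursion against the cavity system: after the pointwise range

The summed distance from the cell `K` on, the kernel of the cavity system, and the roots.
-/

namespace Vale.Agent.P046.Full.Iter

open Finset
open scoped Classical

variable {n : ℕ} {G : Gr n} {w : ℕ → ℝ} {N : ℕ} {I : ℕ → Msg n}

lemma qOf_le_uOf (hc : Ctx G w N I) {c : ℕ} (h : c ≤ N) {T : Finset (Fin n)}
    (hT : T ∈ triangles G) {f : Sym2 (Fin n)} (hf : f ∈ edgesOf T) :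
    qOf G (I c) T f ≤ 30 / 29 * uOf G (I c) f := by
  have e : Labels.kids G T f = (Labels.kids G ∅ f).erase T := by
    rw [← kids_root, kids_erase]
  have hI := hc.small c h T hT f hf
  rw [uOf_eq, ← mul_prod_erase _ _ (mem_kids_root.2 ⟨hT, hf⟩), ← e, ← qOf_eq]
  have := mul_le_mul_of_nonneg_right (show (29 : ℝ) / 30 ≤ 1 - I c T f by linarith)
    (qOf_mem hc h T f).1
  linarith

lemma rate_le_uOf (hc : Ctx G w N I) {c : ℕ} (h : c ≤ N) {T : Finset (Fin n)}
    (hT : T ∈ triangles G) {f : Sym2 (Fin n)} (hf : f ∈ edgesOf T) :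
    rate G (I c) T f ≤ 108 / 100 * ∏ x ∈ (edgesOf T).erase f, uOf G (I c) x := by
  have h0 : 0 ≤ ∏ x ∈ (edgesOf T).erase f, uOf G (I c) x := prod_nonneg fun x _ => (uOf_mem hc h x).1
  refine (Finset.prod_le_prod (fun g _ => (qOf_mem hc h T g).1)
    fun g hg => qOf_le_uOf hc h hT (mem_of_mem_erase hg)).trans ?_
  rw [prod_mul_distrib, prod_const, card_others hT hf]
  exact mul_le_mul_of_nonneg_right (by norm_num) h0

/-- The rates out of one edge of a triangle. -/
lemma sum_rate_le (hc : Ctx G w N I) {c : ℕ} (h : c ≤ N) {T : Finset (Fin n)}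
    (hT : T ∈ triangles G) {e : Sym2 (Fin n)} (he : e ∈ edgesOf T) :
    ∑ f ∈ (edgesOf T).erase e, rate G (I c) T f ≤
      108 / 100 * (uOf G (I c) e * ∑ f ∈ (edgesOf T).erase e, uOf G (I c) f) := by
  obtain ⟨a, b, hab, hE⟩ := card_eq_two.1 (card_others hT he)
  have hmem : ∀ x, x ∈ edgesOf T ↔ x = e ∨ x = a ∨ x = b := fun x => by
    constructor
    · intro hx
      by_cases hxe : x = e
      · exact Or.inl hxe
      · right
        have := mem_erase.2 ⟨hxe, hx⟩
        rw [hE] at this; simpa using this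
    · rintro (rfl | rfl | rfl)
      · exact he
      · exact mem_of_mem_erase (hE ▸ mem_insert_self _ _)
      · exact mem_of_mem_erase (hE ▸ mem_insert_of_mem (mem_singleton_self _))
  have hae : a ≠ e := ne_of_mem_erase (hE ▸ mem_insert_self a {b})
  have hbe : b ≠ e := ne_of_mem_erase (hE ▸ mem_insert_of_mem (mem_singleton_self b))
  have ha : (edgesOf T).erase a = {e, b} := by
    ext x
    simp only [mem_erase, hmem, mem_insert, mem_singleton]
    constructor
    · tauto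
    · rintro (rfl | rfl)
      · exact ⟨hae.symm, Or.inl rfl⟩
      · exact ⟨hab.symm, Or.inr (Or.inr rfl)⟩
  have hb : (edgesOf T).erase b = {e, a} := by
    ext x
    simp only [mem_erase, hmem, mem_insert, mem_singleton]
    constructor
    · tauto
    · rintro (rfl | rfl)
      · exact ⟨hbe.symm, Or.inl rfl⟩
      · exact ⟨hab, Or.inr (Or.inl rfl)⟩
  rw [hE, sum_pair hab, sum_pair hab]
  have h1 := rate_le_uOf hc h hT ((hmem a).2 (Or.inr (Or.inl rfl)))
  have h2 := rate_le_uOf hc h hT ((hmem b).2 (Or.inr (Or.inr rfl)))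
  rw [ha, prod_pair hbe.symm] at h1
  rw [hb, prod_pair hae.symm] at h2
  linarith

/-- The part of the kernel caused by the deviation `e` from the target. -/
noncomputable def devK (G : Gr n) (Md U : ℝ) (e : Sym2 (Fin n) → ℝ) (x : Sym2 (Fin n)) : ℝ :=
  108 / 100 * (2 * Md * U * e x + U * ∑ T ∈ Labels.kids G ∅ x, ∑ y ∈ (edgesOf T).erase x, e y)

lemma devK_nonneg {Md U : ℝ} {e : Sym2 (Fin n) → ℝ} (hMd : 0 ≤ Md) (hU : 0 ≤ U)
    (he : ∀ x, 0 ≤ e x) (x : Sym2 (Fin n)) : 0 ≤ devK G Md U e x :=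
  mul_nonneg (by norm_num) (add_nonneg (mul_nonneg (by positivity) (he x))
    (mul_nonneg hU (sum_nonneg fun _ _ => sum_nonneg fun y _ => he y)))

lemma sum_devK_le {Md U : ℝ} {e : Sym2 (Fin n) → ℝ} (hU : 0 ≤ U)
    (hdeg : ∀ g, ((Labels.kids G ∅ g).card : ℝ) ≤ Md) (he : ∀ x, 0 ≤ e x) :
    ∑ x ∈ G, devK G Md U e x ≤ 432 / 100 * Md * U * ∑ x ∈ G, e x := by
  simp only [devK, ← mul_sum, sum_add_distrib]
  have h : ∑ x ∈ G, ∑ T ∈ Labels.kids G ∅ x, ∑ y ∈ (edgesOf T).erase x, e y ≤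
      2 * Md * ∑ x ∈ G, e x := by
    rw [sum_others_swap, mul_sum]
    refine sum_le_sum fun x _ => ?_
    refine (sum_le_card_nsmul _ _ (2 * e x) fun T hT => ?_).trans ?_
    · rw [sum_const, card_others (mem_kids hT).1 (mem_kids hT).2, nsmul_eq_mul, Nat.cast_two]
    · rw [nsmul_eq_mul]
      exact (mul_le_mul_of_nonneg_right (hdeg x) (by linarith [he x])).trans (le_of_eq (by ring))
  nlinarith [mul_le_mul_of_nonneg_left h hU]

/-- The kernel at an edge, through the target `p`. -/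
lemma co_le (hc : Ctx G w N I) {c : ℕ} (h : c ≤ N) {Md U p : ℝ}
    (hdeg : ∀ g, ((Labels.kids G ∅ g).card : ℝ) ≤ Md) (hp : 0 ≤ p) (hpU : p ≤ U)
    (hU : ∀ x ∈ G, uOf G (I c) x ≤ U) {x : Sym2 (Fin n)} (hx : x ∈ G) :
    ∑ T ∈ Labels.kids G ∅ x, ∑ f ∈ (edgesOf T).erase x, rate G (I c) T f ≤
      216 / 100 * Md * p ^ 2 + devK G Md U (fun y => |uOf G (I c) y - p|) x := by
  obtain ⟨u, hu⟩ : ∃ u, u = uOf G (I c) := ⟨_, rfl⟩
  obtain ⟨E, hE⟩ : ∃ E : ℝ,
    E = ∑ T ∈ Labels.kids G ∅ x, ∑ y ∈ (edgesOf T).erase x, |u y - p| := ⟨_, rfl⟩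
  have hE0 : 0 ≤ E := hE ▸ sum_nonneg fun _ _ => sum_nonneg fun y _ => abs_nonneg _
  have hu0 : 0 ≤ u x := hu ▸ (uOf_mem hc h x).1
  have hsum : ∑ T ∈ Labels.kids G ∅ x, ∑ y ∈ (edgesOf T).erase x, u y ≤ 2 * Md * p + E := by
    have : ∑ T ∈ Labels.kids G ∅ x, ∑ y ∈ (edgesOf T).erase x, u y ≤
        ∑ T ∈ Labels.kids G ∅ x, (2 * p + ∑ y ∈ (edgesOf T).erase x, |u y - p|) := by
      refine sum_le_sum fun T hT => ?_
      refine (sum_le_sum (g := fun y => p + |u y - p|) fun y _ => ?_).trans (le_of_eq ?_)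
      · linarith [le_abs_self (u y - p)]
      · rw [sum_add_distrib, sum_const, card_others (mem_kids hT).1 (mem_kids hT).2, nsmul_eq_mul,
          Nat.cast_two]
    refine this.trans ?_
    rw [sum_add_distrib, ← hE, sum_const, nsmul_eq_mul]
    nlinarith [mul_le_mul_of_nonneg_right (hdeg x) (by linarith : (0 : ℝ) ≤ 2 * p)]
  have h1 : ∑ T ∈ Labels.kids G ∅ x, ∑ f ∈ (edgesOf T).erase x, rate G (I c) T f ≤
      108 / 100 * (u x * (2 * Md * p + E)) := by
    refine (sum_le_sum fun T hT => sum_rate_le hc h (mem_kids hT).1 (mem_kids hT).2).trans ?_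
    rw [← mul_sum, ← mul_sum, ← hu]
    exact mul_le_mul_of_nonneg_left (mul_le_mul_of_nonneg_left hsum hu0) (by norm_num)
  refine h1.trans ?_
  simp only [devK, ← hu, ← hE]
  have hMd : 0 ≤ Md := (Nat.cast_nonneg _).trans (hdeg x)
  have a1 : u x * (2 * Md * p) ≤ 2 * Md * p ^ 2 + 2 * Md * U * |u x - p| := by
    have b1 : u x * (2 * Md * p) ≤ (p + |u x - p|) * (2 * Md * p) :=
      mul_le_mul_of_nonneg_right (by linarith [le_abs_self (u x - p)]) (by positivity)
    nlinarith [mul_le_mul_of_nonneg_left hpU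
      (show 0 ≤ 2 * Md * |u x - p| by positivity)]
  have a2 : u x * E ≤ U * E := mul_le_mul_of_nonneg_right (hu ▸ hU x hx) hE0
  linarith

lemma pairs_le {Md : ℝ} (hdeg : ∀ g, ((Labels.kids G ∅ g).card : ℝ) ≤ Md) {a : ℝ} (ha : 0 ≤ a)
    {Φ : Sym2 (Fin n) → Finset (Fin n) → ℝ}
    (h : ∀ g ∈ G, ∀ T ∈ Labels.kids G ∅ g, Φ g T ≤ a) :
    ∑ g ∈ G, ∑ T ∈ Labels.kids G ∅ g, Φ g T ≤ Md * G.card * a := by
  refine (sum_le_card_nsmul _ _ (Md * a) fun g hg => ?_).trans (le_of_eq ?_)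
  · refine (sum_le_card_nsmul _ _ a fun T hT => h g hg T hT).trans ?_
    rw [nsmul_eq_mul]
    exact mul_le_mul_of_nonneg_right (hdeg g) ha
  · rw [nsmul_eq_mul]; ring

/-- The accumulated message after the cell `K`. -/
lemma IX_le_late (hc : Ctx G w N I) {j K c : ℕ} {R a : ℝ} {T : Finset (Fin n)}
    {f : Sym2 (Fin n)} (hK : K ≤ c) (h : c ≤ N) (hR : rate G (I K) T f ≤ R)
    (ha : A G w I j T f K ≤ a) :
    IX G w j T f c ≤ (∑ i ∈ range K, w i) + (R + a) := by
  have hD : D G w j T f K ≤ R + a := by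
    unfold A at ha
    linarith [le_abs_self (D G w j T f K - rate G (I K) T f)]
  rw [IX, ← sum_range_add_sum_Ico _ hK]
  refine add_le_add (sum_le_sum fun i hi => mul_le_of_le_one_right (hc.nn i)
    (D_mem hc j T f ((nxt_le_succ j i).trans (by have := mem_range.1 hi; omega))).2) ?_
  refine (sum_le_sum (g := fun i => w i * (R + a)) fun i hi => ?_).trans ?_
  · have hi' := mem_Ico.1 hi
    refine mul_le_mul_of_nonneg_left (le_trans ?_ hD) (hc.nn i)
    exact D_antitone hc j T f (hi'.1.trans (le_nxt j i)) ((nxt_le_succ j i).trans (by omega))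
  · rw [← sum_mul]
    refine mul_le_of_le_one_left ?_ ?_
    · exact (D_mem hc j T f (hK.trans h)).1.trans hD
    · exact (sum_le_sum_of_subset_of_nonneg
        (fun i hi => mem_range.2 ((mem_Ico.1 hi).2.trans_le h)) fun i _ _ => hc.nn i).trans hc.sum

/-- The bound on the distance from the cell `K` on. -/
lemma A_le_late (hc : Ctx G w N I) {j K c : ℕ} {R a : ℝ} {T : Finset (Fin n)}
    {f : Sym2 (Fin n)} (hK : K ≤ c) (h : c ≤ N) (hR : rate G (I K) T f ≤ R)
    (ha : A G w I j T f K ≤ a) : A G w I j T f c ≤ R + a := by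
  have h1 := D_antitone hc j T f hK h
  have h2 := rate_antitone hc hK h T f
  have h3 := (D_mem hc j T f h).1
  have h4 := (rate_mem hc h T f).1
  have h5 := A_nonneg (G := G) (w := w) (I := I) j T f K
  have h6 : D G w j T f K - rate G (I K) T f ≤ A G w I j T f K := le_abs_self _
  rw [A, abs_le]
  constructor <;> linarith

/-- The summed stage. -/
theorem stageB (hc : Ctx G w N I) {K j₀ : ℕ} {Md δ R a Dv : ℝ} {q : ℕ → ℝ}
    {dev : ℕ → Sym2 (Fin n) → ℝ} (hK : K ≤ N) (hMd : 0 ≤ Md) (hδ0 : 0 ≤ δ)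
    (hdeg : ∀ g, ((Labels.kids G ∅ g).card : ℝ) ≤ Md) (hw : ∀ i < N, w i ≤ δ) (hδ : δ ≤ 1 / 2)
    (hR0 : 0 ≤ R) (ha0 : 0 ≤ a)
    (hA : ∀ j, j₀ ≤ j → ∀ T ∈ triangles G, ∀ f ∈ edgesOf T, ∀ i ≤ K, A G w I j T f i ≤ a)
    (hR : ∀ T ∈ triangles G, ∀ f ∈ edgesOf T, rate G (I K) T f ≤ R)
    (hx : (∑ i ∈ range K, w i) + (R + a) ≤ 1 / 30)
    (hco : ∀ c, K ≤ c → c < N → ∀ g ∈ G,
      ∑ T ∈ Labels.kids G ∅ g, ∑ f ∈ (edgesOf T).erase g, rate G (I c) T f ≤ q c + dev c g)
    (hq : ∀ c, K ≤ c → c < N → 0 ≤ q c ∧ q c ≤ Md * 3 ∧ w c * (22 / 10 * q c) ≤ 1 / 20)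
    (hdev : ∀ c, K ≤ c → c < N → (∀ g ∈ G, 0 ≤ dev c g) ∧ ∑ g ∈ G, dev c g ≤ Dv)
    (hDv : 0 ≤ Dv) :
    ∀ k, ∀ i ≤ N, S G w I (j₀ + k) i ≤
      (Md * G.card / 2 ^ k + 2 * (Md * G.card * a + 11 / 10 *
        (Md * 3 * (Md * G.card * (2 * (2 * (Md * δ)))) +
          Md * (2 * (R + a) + 2 * (2 * (Md * δ))) * Dv))) *
        amp (fun c => w (K + c) * (22 / 10 * q (K + c))) (N - K) := by
  obtain ⟨P, hP⟩ : ∃ P, P = Md * G.card * a := ⟨_, rfl⟩
  obtain ⟨d, hd⟩ : ∃ d, d = 2 * (Md * δ) := ⟨_, rfl⟩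
  have hd0 : 0 ≤ d := hd ▸ by positivity
  have hP0 : 0 ≤ P := hP ▸ by positivity
  obtain ⟨Cm, hCm⟩ : ∃ Cm, Cm = Md * (2 * (R + a) + 2 * d) := ⟨_, rfl⟩
  have hCm0 : 0 ≤ Cm := hCm ▸ by positivity
  obtain ⟨F₀, hF₀⟩ : ∃ F₀, F₀ = Md * 3 * (Md * G.card * (2 * d)) + Cm * Dv := ⟨_, rfl⟩
  have hF00 : 0 ≤ F₀ := hF₀ ▸ by positivity
  rw [← hd, ← hP, ← hCm, ← hF₀]
  have hearly : ∀ j, j₀ ≤ j → ∀ i ≤ K, S G w I j i ≤ P := fun j hj i hi => hP ▸
    pairs_le hdeg ha0 fun g _ T hT => hA j hj T (mem_kids hT).1 g (mem_kids hT).2 i hi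
  have hg0 : ∀ c < N - K, 0 ≤ w (K + c) * (11 / 10 * F₀) := fun c _ =>
    mul_nonneg (hc.nn _) (by positivity)
  have hF : ∑ c ∈ range (N - K), w (K + c) * (11 / 10 * F₀) ≤ 11 / 10 * F₀ := by
    rw [← sum_mul]
    refine mul_le_of_le_one_left (by positivity) ?_
    have h := sum_Ico_eq_sum_range w K N
    rw [← h]
    exact (sum_le_sum_of_subset_of_nonneg
      (fun i hi => mem_range.2 (mem_Ico.1 hi).2) fun i _ _ => hc.nn i).trans hc.sum
  have hs : ∀ c < N - K,
      0 ≤ w (K + c) * (22 / 10 * q (K + c)) ∧ w (K + c) * (22 / 10 * q (K + c)) ≤ 1 / 20 :=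
    fun c h => by
      obtain ⟨q0, -, q2⟩ := hq (K + c) (by omega) (by omega)
      exact ⟨mul_nonneg (hc.nn _) (by positivity), q2⟩
  have hG := geom_bound (ι := Unit) (y := fun k _ c => S G w I (j₀ + k) (K + c)) hs hg0 hP0
    (show 0 ≤ Md * G.card by positivity) hF
    (fun _ c h => (pairs_le hdeg zero_le_one fun g _ T _ => A_le_one hc _ T g (by omega)).trans
      (le_of_eq (mul_one _))) (fun k _ => hearly _ (by omega) _ le_rfl) ?step
  case step =>
    intro k c hcm B hB hyp _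
    obtain ⟨c', hc'⟩ : ∃ c', c' = K + c := ⟨_, rfl⟩
    have hKc : K ≤ c' := by omega
    have hcN : c' < N := by omega
    have hall : ∀ i ≤ c' + 1, S G w I (j₀ + k) i ≤ B := fun i hi => by
      rcases le_or_gt i K with h | h
      · exact (hearly _ (by omega) i h).trans hB
      · have := hyp () (i - K) (by omega)
        rwa [Nat.add_sub_cancel' h.le] at this
    have hA' : ∀ T ∈ triangles G, ∀ f ∈ edgesOf T, ∀ i ≤ c' + 1,
        A G w I (j₀ + k) T f i ≤ R + a := fun T hT f hf i hi => by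
      rcases le_or_gt i K with h | h
      · linarith [hA _ (Nat.le_add_right j₀ k) T hT f hf i h]
      · exact A_le_late hc h.le (by omega) (hR T hT f hf) (hA _ (by omega) T hT f hf K le_rfl)
    have hX : ∀ T ∈ triangles G, ∀ f ∈ edgesOf T, IX G w (j₀ + k) T f c' ≤ 1 / 30 :=
      fun T hT f hf => (IX_le_late hc hKc hcN.le (hR T hT f hf)
        (hA _ (Nat.le_add_right j₀ k) T hT f hf K le_rfl)).trans hx
    have hC : ∀ g ∈ G, ∑ T ∈ Labels.kids G ∅ g, C G w I (j₀ + k) (2 * (Md * δ)) T g c' ≤ Cm := by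
      intro g _
      refine (sum_le_card_nsmul _ _ (2 * (R + a) + 2 * d) fun T hT => ?_).trans ?_
      · rw [← hd]
        exact C_le hc hcN T g fun i hi => hA' T (mem_kids hT).1 g (mem_kids hT).2 i hi
      · rw [nsmul_eq_mul, hCm]
        exact mul_le_mul_of_nonneg_right (hdeg g) (by positivity)
    have hsum : ∑ g ∈ G, ∑ T ∈ Labels.kids G ∅ g, C G w I (j₀ + k) (2 * (Md * δ)) T g c' ≤
        2 * B + Md * G.card * (2 * d) := by
      simp only [C, ← hd, sum_add_distrib]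
      have h1 : S G w I (j₀ + k) (Labels.nxt (j₀ + k) c') ≤ B := hall _ (nxt_le_succ _ _)
      have h2 : ∑ g ∈ G, ∑ T ∈ Labels.kids G ∅ g,
          ∑ l ∈ range c', w l * A G w I (j₀ + k) T g (Labels.nxt (j₀ + k) l) =
          ∑ l ∈ range c', w l * S G w I (j₀ + k) (Labels.nxt (j₀ + k) l) := by
        simp only [S, mul_sum]
        rw [sum_comm (s := range c')]
        exact sum_congr rfl fun g _ => sum_comm
      have h3 : ∑ l ∈ range c', w l * S G w I (j₀ + k) (Labels.nxt (j₀ + k) l) ≤ B := by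
        refine (sum_le_sum (g := fun l => w l * B) fun l hl => mul_le_mul_of_nonneg_left
          (hall _ ((nxt_le_succ _ l).trans (by have := mem_range.1 hl; omega))) (hc.nn l)).trans ?_
        rw [← sum_mul]
        exact mul_le_of_le_one_left (hP0.trans hB) (sum_w_le hc hcN.le)
      have h4 : ∑ g ∈ G, ∑ T ∈ Labels.kids G ∅ g, 2 * d ≤ Md * G.card * (2 * d) :=
        pairs_le hdeg (by linarith) fun _ _ _ _ => le_rfl
      have h1' : ∑ g ∈ G, ∑ T ∈ Labels.kids G ∅ g,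
          A G w I (j₀ + k) T g (Labels.nxt (j₀ + k) c') ≤ B := h1
      linarith [h2, h3, h4, h1']
    obtain ⟨q0, q1, -⟩ := hq c' hKc hcN
    obtain ⟨v0, v1⟩ := hdev c' hKc hcN
    have hstep := S_step hc (j := j₀ + k) hcN hδ0 hMd hdeg hw hδ hX (hco c' hKc hcN) v0 hC
    show S G w I (j₀ + (k + 1)) (K + (c + 1)) ≤ _
    rw [← add_assoc j₀, ← add_assoc K, ← hc']
    refine hstep.trans ?_
    have b1 : q c' * (∑ g ∈ G, ∑ T ∈ Labels.kids G ∅ g,
        C G w I (j₀ + k) (2 * (Md * δ)) T g c') + Cm * ∑ g ∈ G, dev c' g ≤ 2 * q c' * B + F₀ := by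
      have := mul_le_mul_of_nonneg_left hsum q0
      have := mul_le_mul_of_nonneg_right q1 (show 0 ≤ Md * G.card * (2 * d) by positivity)
      have := mul_le_mul_of_nonneg_left v1 hCm0
      linarith [hF₀]
    have b2 := mul_le_mul_of_nonneg_left b1 (mul_nonneg (hc.nn c') (by norm_num : (0:ℝ) ≤ 11 / 10))
    linarith
  intro k i hi
  have hpos : 0 ≤ Md * G.card / 2 ^ k + 2 * (P + 11 / 10 * F₀) := by positivity
  have h1 := one_le_amp (fun c h => (hs c h).1) (le_refl (N - K))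
  rcases le_or_gt i K with h | h
  · refine (hearly _ (Nat.le_add_right _ _) i h).trans (le_trans ?_ (le_mul_of_one_le_right hpos h1))
    have : 0 ≤ Md * G.card / 2 ^ k := by positivity
    linarith
  · have h2 := hG k () (i - K) (by omega)
    rw [Nat.add_sub_cancel' h.le] at h2
    exact h2.trans (mul_le_mul_of_nonneg_left
      (amp_mono (fun c h => (hs c h).1) (by omega) le_rfl) hpos)

/-- The roots. -/
theorem root_bound (hc : Ctx G w N I) {K j : ℕ} {Md δ R a U Sb : ℝ} (hK : K ≤ N) (hMd : 0 ≤ Md)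
    (hδ0 : 0 ≤ δ) (hdeg : ∀ g, ((Labels.kids G ∅ g).card : ℝ) ≤ Md) (hw : ∀ i < N, w i ≤ δ)
    (hδ : δ ≤ 1 / 2) (ha0 : 0 ≤ a)
    (hA : ∀ T ∈ triangles G, ∀ f ∈ edgesOf T, ∀ i ≤ K, A G w I j T f i ≤ a)
    (hR : ∀ T ∈ triangles G, ∀ f ∈ edgesOf T, rate G (I K) T f ≤ R)
    (hx : (∑ i ∈ range K, w i) + (R + a) ≤ 1 / 30)
    (hU : ∀ g ∈ G, uOf G (I K) g ≤ U) (hU0 : 0 ≤ U) (hS : ∀ i ≤ N, S G w I j i ≤ Sb) :
    ∑ g ∈ G, |Labels.val G w (j + 1) ∅ g N - uOf G (I N) g| ≤
      11 / 10 * (Md * G.card * (2 * a + 2 * (2 * (Md * δ))) +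
        U * (2 * Sb + Md * G.card * (2 * (2 * (Md * δ))))) := by
  obtain ⟨d, hd⟩ : ∃ d, d = 2 * (Md * δ) := ⟨_, rfl⟩
  have hd0 : 0 ≤ d := hd ▸ by positivity
  rw [← hd]
  obtain ⟨Z, hZ⟩ : ∃ Z, Z = 11 / 10 * (Md * G.card * (2 * a + 2 * d) +
      U * (2 * Sb + Md * G.card * (2 * d))) := ⟨_, rfl⟩
  have hS0 : 0 ≤ Sb := (sum_nonneg fun g _ => sum_nonneg fun T _ => A_nonneg _ _ _ _).trans
    (hS 0 (Nat.zero_le _))
  have hZ1 : 0 ≤ Md * G.card * (2 * a + 2 * d) := by positivity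
  have hZ2 : 0 ≤ U * (2 * Sb + Md * G.card * (2 * d)) := by positivity
  have hZ0 : 0 ≤ Z := by rw [hZ]; positivity
  have main : ∀ c ≤ N, ∑ g ∈ G, |Labels.val G w (j + 1) ∅ g c - uOf G (I c) g| ≤
      (∑ i ∈ range c, w i) * Z := by
    intro c
    induction c with
    | zero =>
      intro _
      simp [val_zero_cell, uOf, hc.zero]
    | succ c ih =>
      intro h
      have hX : ∀ T ∈ triangles G, ∀ f ∈ edgesOf T, IX G w j T f c ≤ 1 / 30 := fun T hT f hf => by
        rcases le_or_gt K c with h' | h'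
        · exact (IX_le_late hc h' (by omega) (hR T hT f hf) (hA T hT f hf K le_rfl)).trans hx
        · refine ((IX_mono hc j T f h'.le hK).trans
            (IX_le_late hc le_rfl hK (hR T hT f hf) (hA T hT f hf K le_rfl))).trans hx
      have hstep : ∑ g ∈ G, |Labels.val G w (j + 1) ∅ g (c + 1) - uOf G (I (c + 1)) g| ≤
          ∑ g ∈ G, |Labels.val G w (j + 1) ∅ g c - uOf G (I c) g| + w c * (11 / 10) *
            ∑ g ∈ G, uOf G (I c) g * ∑ T ∈ Labels.kids G ∅ g, C G w I j d T g c := by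
        rw [mul_sum, ← sum_add_distrib]
        refine sum_le_sum fun g _ => (root_step hc h hdeg hw hδ hX g).trans (le_of_eq ?_)
        rw [hd, mul_assoc (w c * (11 / 10))]
      have hrest : 11 / 10 *
          (∑ g ∈ G, uOf G (I c) g * ∑ T ∈ Labels.kids G ∅ g, C G w I j d T g c) ≤ Z := by
        rw [hZ]
        refine mul_le_mul_of_nonneg_left ?_ (by norm_num)
        rcases le_or_gt K c with h' | h'
        · refine le_trans ?_ (le_add_of_nonneg_left hZ1)
          refine (sum_le_sum (g := fun g => U * ∑ T ∈ Labels.kids G ∅ g, C G w I j d T g c)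
            fun g hg => mul_le_mul_of_nonneg_right
              ((uOf_antitone hc h' (by omega) g).trans (hU g hg))
              (sum_nonneg fun T _ => C_nonneg hc hd0 T g)).trans ?_
          rw [← mul_sum]
          refine mul_le_mul_of_nonneg_left ?_ hU0
          simp only [C, sum_add_distrib]
          have h1 : ∑ g ∈ G, ∑ T ∈ Labels.kids G ∅ g, A G w I j T g (Labels.nxt j c) ≤ Sb :=
            hS _ ((nxt_le_succ j c).trans h)
          have h2 : ∑ g ∈ G, ∑ T ∈ Labels.kids G ∅ g,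
              ∑ l ∈ range c, w l * A G w I j T g (Labels.nxt j l) =
              ∑ l ∈ range c, w l * S G w I j (Labels.nxt j l) := by
            simp only [S, mul_sum]
            rw [sum_comm (s := range c)]
            exact sum_congr rfl fun g _ => sum_comm
          have h3 : ∑ l ∈ range c, w l * S G w I j (Labels.nxt j l) ≤ Sb := by
            refine (sum_le_sum (g := fun l => w l * Sb) fun l hl => mul_le_mul_of_nonneg_left
              (hS _ ((nxt_le_succ _ l).trans (by have := mem_range.1 hl; omega))) (hc.nn l)).trans ?_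
            rw [← sum_mul]
            exact mul_le_of_le_one_left hS0 (sum_w_le hc (by omega))
          have h4 : ∑ g ∈ G, ∑ T ∈ Labels.kids G ∅ g, 2 * d ≤ Md * G.card * (2 * d) :=
            pairs_le hdeg (by linarith) fun _ _ _ _ => le_rfl
          linarith
        · refine le_trans ?_ (le_add_of_nonneg_right hZ2)
          refine le_trans (sum_le_sum fun g _ => mul_le_of_le_one_left
            (sum_nonneg fun T _ => C_nonneg hc hd0 T g) (uOf_mem hc (by omega) g).2) ?_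
          exact pairs_le hdeg (by positivity) fun g _ T hT => C_le hc h T g
            fun i hi => hA T (mem_kids hT).1 g (mem_kids hT).2 i (by omega)
      rw [sum_range_succ, add_mul]
      have := mul_le_mul_of_nonneg_left hrest (hc.nn c)
      linarith [ih (by omega), hstep]
  exact hZ ▸ (main N le_rfl).trans (mul_le_of_le_one_left hZ0 hc.sum)

end Vale.Agent.P046.Full.Iter
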