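import Mathlib

/-!
A discrete Gronwall inequality in two indices: the depth halves the dependence on the start.
-/

namespace Vale.Agent.P046.Full.Iter

open Finset

variable {ι : Sort*} {y : ℕ → ι → ℕ → ℝ} {s g : ℕ → ℝ} {B₀ P F : ℝ} {m : ℕ}

/-- The weight of the first `c` cells. -/
noncomputable def amp (s : ℕ → ℝ) (c : ℕ) : ℝ := Real.exp (5 / 2 * ∑ i ∈ range c, s i)

lemma one_le_amp (hs : ∀ c < m, 0 ≤ s c) {c : ℕ} (h : c ≤ m) : 1 ≤ amp s c :=
  Real.one_le_exp (mul_nonneg (by norm_num)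
    (sum_nonneg fun i hi => hs i (lt_of_lt_of_le (mem_range.1 hi) h)))

lemma amp_mono (hs : ∀ c < m, 0 ≤ s c) {i c : ℕ} (h : i ≤ c) (hc : c ≤ m) :
    amp s i ≤ amp s c :=
  Real.exp_le_exp.2 (mul_le_mul_of_nonneg_left
    (sum_le_sum_of_subset_of_nonneg (range_subset_range.2 h)
      fun l hl _ => hs l (lt_of_lt_of_le (mem_range.1 hl) hc)) (by norm_num))

/-- One cell pays for twice the step. -/
lemma two_mul_step_le (hs : ∀ c < m, 0 ≤ s c ∧ s c ≤ 1 / 20) {c : ℕ} (h : c < m) :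
    2 * s c * amp s (c + 1) ≤ amp s (c + 1) - amp s c := by
  have e : amp s c = amp s (c + 1) * Real.exp (-(5 / 2 * s c)) := by
    rw [amp, amp, sum_range_succ, ← Real.exp_add]
    ring_nf
  have h0 := (hs c h).1
  have h1 : 5 / 2 * s c + 1 ≤ Real.exp (5 / 2 * s c) := Real.add_one_le_exp _
  have h2 : Real.exp (-(5 / 2 * s c)) ≤ 1 - 2 * s c := by
    rw [Real.exp_neg, inv_le_iff_one_le_mul₀ (Real.exp_pos _)]
    nlinarith [(hs c h).2]
  have h3 := mul_le_mul_of_nonneg_left h2 (Real.exp_pos (5 / 2 * ∑ i ∈ range (c + 1), s i)).le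
  rw [e]
  unfold amp
  linarith

/-- The two index Gronwall inequality. -/
theorem geom_bound (hs : ∀ c < m, 0 ≤ s c ∧ s c ≤ 1 / 20) (hg : ∀ c < m, 0 ≤ g c)
    (hP : 0 ≤ P) (hB₀ : 0 ≤ B₀) (hF : ∑ c ∈ range m, g c ≤ F)
    (h0 : ∀ x, ∀ c ≤ m, y 0 x c ≤ B₀) (hinit : ∀ j x, y (j + 1) x 0 ≤ P)
    (hstep : ∀ j, ∀ c < m, ∀ B, P ≤ B → (∀ x, ∀ i ≤ c + 1, y j x i ≤ B) →
      ∀ x, y (j + 1) x (c + 1) ≤ y (j + 1) x c + s c * B + g c) :
    ∀ k x, ∀ c ≤ m, y k x c ≤ (B₀ / 2 ^ k + 2 * (P + F)) * amp s c := by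
  have hF0 : 0 ≤ F := le_trans (sum_nonneg fun c hc => hg c (mem_range.1 hc)) hF
  have hs0 : ∀ c < m, 0 ≤ s c := fun c hc => (hs c hc).1
  intro k
  induction k with
  | zero =>
    intro x c hc
    refine (h0 x c hc).trans ?_
    have := one_le_amp hs0 hc
    simp only [pow_zero, div_one]
    nlinarith
  | succ k ih =>
    obtain ⟨a, ha⟩ : ∃ a, a = B₀ / 2 ^ k := ⟨_, rfl⟩
    have ha0 : 0 ≤ a := ha ▸ by positivity
    rw [← ha] at ih
    have key : ∀ c ≤ m, ∀ x,
        y (k + 1) x c ≤ (a / 2 + (P + F)) * amp s c + ∑ i ∈ range c, g i := by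
      intro c
      induction c with
      | zero =>
        intro _ x
        simp only [range_zero, sum_empty, add_zero, amp, mul_zero, Real.exp_zero, mul_one]
        linarith [hinit k x]
      | succ c ihc =>
        intro hc x
        have h1 := one_le_amp hs0 hc
        have hB : P ≤ (a + 2 * (P + F)) * amp s (c + 1) := by nlinarith
        have h2 := hstep k c hc _ hB (fun z i hi => (ih z i (hi.trans hc)).trans
          (mul_le_mul_of_nonneg_left (amp_mono hs0 hi hc) (by linarith))) x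
        have h3 := ihc (Nat.le_of_succ_le hc) x
        have h4 := mul_le_mul_of_nonneg_left (two_mul_step_le hs hc)
          (show 0 ≤ a / 2 + (P + F) by linarith)
        rw [sum_range_succ]
        nlinarith
    intro x c hc
    have h1 := one_le_amp hs0 hc
    have h2 : ∑ i ∈ range c, g i ≤ F :=
      (sum_le_sum_of_subset_of_nonneg (range_subset_range.2 hc)
        fun i hi _ => hg i (mem_range.1 hi)).trans hF
    have h3 : B₀ / 2 ^ (k + 1) = a / 2 := by rw [ha, pow_succ, div_div]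
    rw [h3]
    nlinarith [key c hc x, le_mul_of_one_le_right hF0 h1,
      mul_nonneg hP (zero_le_one.trans h1)]

end Vale.Agent.P046.Full.Iter
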