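import Vale.Agent.P046.Full.Iter.Step
import Vale.Agent.P046.Full.Iter.Gronwall

/-!
# The depth recursion against the cavity system: the two stages

Before the cell `K` the distance is controlled pointwise, from `K` on only summed over all
directed triangles, where the kernel is bounded through the mean deviation of the cavity system.
-/

namespace Vale.Agent.P046.Full.Iter

open Finset
open scoped Classical

variable {n : ℕ} {G : Gr n} {w : ℕ → ℝ} {N : ℕ} {I : ℕ → Msg n}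

/-- The total distance over the directed triangles. -/
noncomputable def S (G : Gr n) (w : ℕ → ℝ) (I : ℕ → Msg n) (j c : ℕ) : ℝ :=
  ∑ g ∈ G, ∑ T ∈ Labels.kids G ∅ g, A G w I j T g c

lemma mem_kids_root {T : Finset (Fin n)} {g : Sym2 (Fin n)} :
    T ∈ Labels.kids G ∅ g ↔ T ∈ triangles G ∧ g ∈ edgesOf T := by
  rw [← kids_root]; simp

/-- The two ways to sum over the ordered pairs of edges of a triangle. -/
lemma sum_others_swap (Φ : Finset (Fin n) → Sym2 (Fin n) → Sym2 (Fin n) → ℝ) :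
    ∑ g ∈ G, ∑ T ∈ Labels.kids G ∅ g, ∑ h ∈ (edgesOf T).erase g, Φ T g h =
      ∑ h ∈ G, ∑ T ∈ Labels.kids G ∅ h, ∑ g ∈ (edgesOf T).erase h, Φ T g h := by
  have e : ∀ Ψ : Sym2 (Fin n) → Finset (Fin n) → ℝ,
      ∑ g ∈ G, ∑ T ∈ Labels.kids G ∅ g, Ψ g T = ∑ T ∈ triangles G, ∑ g ∈ edgesOf T, Ψ g T :=
    fun Ψ => sum_comm' fun g T => by
      rw [mem_kids_root]
      exact ⟨fun h => ⟨h.2.2, h.2.1⟩, fun h => ⟨edgesOf_subset h.2 h.1, h.2, h.1⟩⟩
  rw [e, e]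
  refine sum_congr rfl fun T _ => sum_comm' fun g h => ?_
  simp only [mem_erase]
  tauto

lemma A_nonneg (j : ℕ) (T : Finset (Fin n)) (f : Sym2 (Fin n)) (c : ℕ) :
    0 ≤ A G w I j T f c := abs_nonneg _

lemma A_le_one (hc : Ctx G w N I) (j : ℕ) (T : Finset (Fin n)) (f : Sym2 (Fin n)) {c : ℕ}
    (h : c ≤ N) : A G w I j T f c ≤ 1 := by
  have h1 := D_mem hc j T f h
  have h2 := rate_mem hc h T f
  rw [A, abs_le]
  constructor <;> linarith

/-- The history term of a child, from a bound on the cells up to the next one. -/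
lemma C_le (hc : Ctx G w N I) {j c : ℕ} {B d : ℝ} (h : c < N) (T : Finset (Fin n))
    (f : Sym2 (Fin n)) (hB : ∀ i ≤ c + 1, A G w I j T f i ≤ B) :
    C G w I j d T f c ≤ 2 * B + 2 * d := by
  have h0 : 0 ≤ B := (A_nonneg j T f 0).trans (hB 0 (Nat.zero_le _))
  have h2 : ∑ l ∈ range c, w l * A G w I j T f (Labels.nxt j l) ≤ B := by
    refine (sum_le_sum (g := fun l => w l * B) fun l hl => ?_).trans ?_
    · exact mul_le_mul_of_nonneg_left (hB _ ((nxt_le_succ j l).trans (by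
        have := mem_range.1 hl; omega))) (hc.nn l)
    · rw [← sum_mul]; exact mul_le_of_le_one_left h0 (sum_w_le hc h.le)
  unfold C
  linarith [hB _ (nxt_le_succ j c)]

lemma C_nonneg (hc : Ctx G w N I) {j c : ℕ} {d : ℝ} (hd : 0 ≤ d) (T : Finset (Fin n))
    (f : Sym2 (Fin n)) : 0 ≤ C G w I j d T f c :=
  add_nonneg (add_nonneg (A_nonneg _ _ _ _)
    (sum_nonneg fun l _ => mul_nonneg (hc.nn l) (A_nonneg _ _ _ _))) (by linarith)

/-- A directed triangle of `G`. -/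
abbrev Dir (G : Gr n) := {x : Finset (Fin n) × Sym2 (Fin n) // x.1 ∈ triangles G ∧ x.2 ∈ edgesOf x.1}

/-- The pointwise stage. -/
theorem stageA (hc : Ctx G w N I) {m : ℕ} {Md δ : ℝ} {R : ℕ → ℝ} (hm : m ≤ N) (hMd : 0 ≤ Md)
    (hδ0 : 0 ≤ δ) (hdeg : ∀ g, ((Labels.kids G ∅ g).card : ℝ) ≤ Md) (hw : ∀ i < N, w i ≤ δ)
    (hδ : δ ≤ 1 / 2) (hx : ∑ i ∈ range m, w i ≤ 1 / 30)
    (hR : ∀ c < m, ∀ T ∈ triangles G, ∀ f ∈ edgesOf T, rate G (I c) T f ≤ R c)
    (hR0 : ∀ c < m, 0 ≤ R c)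
    (hs : ∀ c < m, w c * R c * (44 / 10 * Md) ≤ 1 / 20) :
    ∀ j, ∀ T ∈ triangles G, ∀ f ∈ edgesOf T, ∀ c ≤ m, A G w I j T f c ≤
      (1 / 2 ^ j + 2 * (0 + ∑ i ∈ range m, w i * R i * (44 / 10 * Md) * (2 * (Md * δ)))) *
        amp (fun c => w c * R c * (44 / 10 * Md)) c := by
  have hd0 : 0 ≤ 2 * (Md * δ) := by positivity
  have hnn : ∀ c < m, 0 ≤ w c * R c * (44 / 10 * Md) := fun c hc' =>
    mul_nonneg (mul_nonneg (hc.nn c) (hR0 c hc')) (by linarith)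
  intro j T hT f hf
  refine geom_bound (ι := Dir G) (y := fun j x c => A G w I j x.1.1 x.1.2 c)
    (fun c hc' => ⟨hnn c hc', hs c hc'⟩) (fun c hc' => mul_nonneg (hnn c hc') hd0) le_rfl
    zero_le_one le_rfl (fun x c hc' => A_le_one hc 0 _ _ (hc'.trans hm))
    (fun j x => (A_zero_cell hc _ _ _).le) ?_ j ⟨(T, f), hT, hf⟩
  intro k c hcm B hB hyp x
  have hcN : c < N := lt_of_lt_of_le hcm hm
  have hX : ∀ T ∈ triangles G, ∀ f ∈ edgesOf T, IX G w k T f c ≤ 1 / 30 := fun T _ f _ =>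
    ((sum_le_sum fun i hi => mul_le_of_le_one_right (hc.nn i)
      (D_mem hc k T f ((nxt_le_succ k i).trans (by have := mem_range.1 hi; omega))).2).trans
      (sum_le_sum_of_subset_of_nonneg (range_subset_range.2 hcm.le)
        fun i _ _ => hc.nn i)).trans hx
  refine (A_step hc hcN hdeg hw hδ hX _ _).trans ?_
  obtain ⟨⟨t, e⟩, ht, he⟩ := x
  have hsum : ∑ g ∈ (edgesOf t).erase e, ∑ T' ∈ Labels.kids G t g,
      C G w I k (2 * (Md * δ)) T' g c ≤ 2 * (Md * (2 * B + 2 * (2 * (Md * δ)))) := by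
    refine (sum_le_card_nsmul _ _ (Md * (2 * B + 2 * (2 * (Md * δ)))) fun g _ => ?_).trans
      (le_of_eq ?_)
    · refine (sum_le_card_nsmul _ _ (2 * B + 2 * (2 * (Md * δ))) fun T' hT' => ?_).trans ?_
      · exact C_le hc hcN T' g fun i hi => hyp ⟨(T', g), mem_kids hT'⟩ i hi
      · rw [nsmul_eq_mul]
        exact mul_le_mul_of_nonneg_right
          ((Nat.cast_le.2 (card_le_card (kids_subset_root t g))).trans (hdeg g)) (by linarith)
    · rw [card_others ht he, nsmul_eq_mul, Nat.cast_two]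
  have hr := hR c hcm t ht e he
  have hr0 := (rate_mem hc hcN.le t e).1
  refine le_trans (add_le_add le_rfl (mul_le_mul (mul_le_mul_of_nonneg_left hr
    (mul_nonneg (hc.nn c) (by norm_num))) hsum ?_ (mul_nonneg (mul_nonneg (hc.nn c)
      (by norm_num)) (hR0 c hcm)))) (le_of_eq ?_)
  · exact sum_nonneg fun g _ => sum_nonneg fun T' _ => C_nonneg hc hd0 T' g
  · dsimp only; ring

/-- The step of the summed distance. -/
lemma S_step (hc : Ctx G w N I) {j c : ℕ} {Md δ q Cm : ℝ} {dev : Sym2 (Fin n) → ℝ} (h : c < N)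
    (hδ0 : 0 ≤ δ) (hMd : 0 ≤ Md) (hdeg : ∀ g, ((Labels.kids G ∅ g).card : ℝ) ≤ Md)
    (hw : ∀ i < N, w i ≤ δ) (hδ : δ ≤ 1 / 2)
    (hX : ∀ T ∈ triangles G, ∀ f ∈ edgesOf T, IX G w j T f c ≤ 1 / 30)
    (hco : ∀ g ∈ G, ∑ T ∈ Labels.kids G ∅ g, ∑ f ∈ (edgesOf T).erase g, rate G (I c) T f
      ≤ q + dev g)
    (hdev : ∀ g ∈ G, 0 ≤ dev g)
    (hC : ∀ g ∈ G, ∑ T ∈ Labels.kids G ∅ g, C G w I j (2 * (Md * δ)) T g c ≤ Cm) :
    S G w I (j + 1) (c + 1) ≤ S G w I (j + 1) c + w c * (11 / 10) *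
      (q * (∑ g ∈ G, ∑ T ∈ Labels.kids G ∅ g, C G w I j (2 * (Md * δ)) T g c) +
        Cm * ∑ g ∈ G, dev g) := by
  have hd0 : 0 ≤ 2 * (Md * δ) := by positivity
  have h1 : S G w I (j + 1) (c + 1) ≤ S G w I (j + 1) c + w c * (11 / 10) *
      ∑ g ∈ G, ∑ T ∈ Labels.kids G ∅ g, ∑ e ∈ (edgesOf T).erase g,
        rate G (I c) T g * ∑ T' ∈ Labels.kids G T e, C G w I j (2 * (Md * δ)) T' e c := by
    simp only [S, mul_sum, ← sum_add_distrib]
    refine sum_le_sum fun g _ => sum_le_sum fun T _ => ?_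
    refine (A_step hc h hdeg hw hδ hX T g).trans (le_of_eq ?_)
    simp only [mul_sum, mul_assoc]
  refine h1.trans (add_le_add le_rfl (mul_le_mul_of_nonneg_left ?_
    (mul_nonneg (hc.nn c) (by norm_num))))
  rw [sum_others_swap]
  rw [mul_sum (a := q), mul_sum (a := Cm), ← sum_add_distrib]
  refine sum_le_sum fun e he => ?_
  obtain ⟨Cs, hCs⟩ : ∃ Cs, Cs = ∑ T ∈ Labels.kids G ∅ e, C G w I j (2 * (Md * δ)) T e c :=
    ⟨_, rfl⟩
  have hCs0 : 0 ≤ Cs := hCs ▸ sum_nonneg fun T _ => C_nonneg hc hd0 T e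
  rw [← hCs]
  calc ∑ T ∈ Labels.kids G ∅ e, ∑ g ∈ (edgesOf T).erase e,
        rate G (I c) T g * ∑ T' ∈ Labels.kids G T e, C G w I j (2 * (Md * δ)) T' e c
      ≤ ∑ T ∈ Labels.kids G ∅ e, ∑ g ∈ (edgesOf T).erase e, rate G (I c) T g * Cs :=
        sum_le_sum fun T _ => sum_le_sum fun g _ => mul_le_mul_of_nonneg_left
          (hCs ▸ sum_le_sum_of_subset_of_nonneg (kids_subset_root T e)
            fun T' _ _ => C_nonneg hc hd0 T' e) (rate_mem hc h.le T g).1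
    _ = (∑ T ∈ Labels.kids G ∅ e, ∑ g ∈ (edgesOf T).erase e, rate G (I c) T g) * Cs := by
        simp only [sum_mul]
    _ ≤ (q + dev e) * Cs := mul_le_mul_of_nonneg_right (hco e he) hCs0
    _ ≤ q * Cs + Cm * dev e := by
        rw [add_mul, mul_comm Cm]
        exact add_le_add le_rfl (mul_le_mul_of_nonneg_left (hCs.le.trans (hC e he)) (hdev e he))

end Vale.Agent.P046.Full.Iter
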