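import Vale.Agent.P046.Full.Defs

/-!
# The depth recursion against the cavity system: one grid step

`D` is the product of the depth values of the two other edges of a triangle, `rate` the same
product in the cavity system, and `A` their distance. One step of the grid increases `A` at depth
`j + 1` by at most the step times `rate` times the distances at depth `j` of the children.
-/

namespace Vale.Agent.P046.Full.Iter

open Finset
open scoped Classical

variable {n : ℕ} {G : Gr n} {w : ℕ → ℝ} {N : ℕ} {I : ℕ → Msg n}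

/-- A cavity system along the weights `w`, with small messages. -/
structure Ctx (G : Gr n) (w : ℕ → ℝ) (N : ℕ) (I : ℕ → Msg n) : Prop where
  nn : ∀ i, 0 ≤ w i
  sum : ∑ i ∈ range N, w i ≤ 1
  zero : ∀ t f, I 0 t f = 0
  succ : ∀ c t f, I (c + 1) t f = I c t f + w c * rate G (I c) t f
  small : ∀ c, c ≤ N → ∀ t ∈ triangles G, ∀ f ∈ edgesOf t, 0 ≤ I c t f ∧ I c t f ≤ 1 / 30

/-- The product of the depth values of the other two edges of `T`. -/
noncomputable def D (G : Gr n) (w : ℕ → ℝ) (j : ℕ) (T : Finset (Fin n)) (f : Sym2 (Fin n))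
    (c : ℕ) : ℝ :=
  ∏ h ∈ (edgesOf T).erase f, Labels.val G w j T h c

/-- The accumulated depth message. -/
noncomputable def IX (G : Gr n) (w : ℕ → ℝ) (j : ℕ) (T : Finset (Fin n)) (f : Sym2 (Fin n))
    (c : ℕ) : ℝ :=
  ∑ i ∈ range c, w i * D G w j T f (Labels.nxt j i)

/-- The distance between the depth recursion and the cavity system at a directed triangle. -/
noncomputable def A (G : Gr n) (w : ℕ → ℝ) (I : ℕ → Msg n) (j : ℕ) (T : Finset (Fin n))
    (f : Sym2 (Fin n)) (c : ℕ) : ℝ :=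
  |D G w j T f c - rate G (I c) T f|

/-- What a child contributes to the error of a step. -/
noncomputable def C (G : Gr n) (w : ℕ → ℝ) (I : ℕ → Msg n) (j : ℕ) (d : ℝ) (T : Finset (Fin n))
    (f : Sym2 (Fin n)) (c : ℕ) : ℝ :=
  A G w I j T f (Labels.nxt j c) + ∑ l ∈ range c, w l * A G w I j T f (Labels.nxt j l) + 2 * d

lemma nxt_le_succ (j i : ℕ) : Labels.nxt j i ≤ i + 1 := by
  unfold Labels.nxt; split <;> omega

lemma le_nxt (j i : ℕ) : i ≤ Labels.nxt j i := by
  unfold Labels.nxt; split <;> omega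

lemma val_succ (j : ℕ) (P : Finset (Fin n)) (f : Sym2 (Fin n)) (c : ℕ) :
    Labels.val G w (j + 1) P f c = ∏ T ∈ Labels.kids G P f, (1 - IX G w j T f c) := rfl

lemma IX_succ (j : ℕ) (T : Finset (Fin n)) (f : Sym2 (Fin n)) (c : ℕ) :
    IX G w j T f (c + 1) = IX G w j T f c + w c * D G w j T f (Labels.nxt j c) :=
  sum_range_succ _ _

lemma kids_erase (t : Finset (Fin n)) (f : Sym2 (Fin n)) :
    ((triangles G).filter fun t' => f ∈ edgesOf t').erase t = Labels.kids G t f := by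
  ext; simp [Labels.kids]; tauto

lemma kids_root (f : Sym2 (Fin n)) :
    (triangles G).filter (fun t => f ∈ edgesOf t) = Labels.kids G ∅ f := by
  ext T
  simp only [Labels.kids, mem_filter, and_congr_right_iff]
  intro hT
  refine ⟨fun h => ⟨h, ?_⟩, fun h => h.1⟩
  rintro rfl
  simpa using card_of_mem_triangles hT

lemma kids_subset_root (t : Finset (Fin n)) (f : Sym2 (Fin n)) :
    Labels.kids G t f ⊆ Labels.kids G ∅ f := by
  rw [← kids_root, ← kids_erase]
  exact erase_subset _ _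

lemma mem_kids {t T : Finset (Fin n)} {f : Sym2 (Fin n)} (h : T ∈ Labels.kids G t f) :
    T ∈ triangles G ∧ f ∈ edgesOf T := by
  simp only [Labels.kids, mem_filter] at h
  exact ⟨h.1, h.2.1⟩

lemma qOf_eq (J : Msg n) (t : Finset (Fin n)) (f : Sym2 (Fin n)) :
    qOf G J t f = ∏ T ∈ Labels.kids G t f, (1 - J T f) := by
  rw [qOf, kids_erase]

lemma uOf_eq (J : Msg n) (f : Sym2 (Fin n)) :
    uOf G J f = ∏ T ∈ Labels.kids G ∅ f, (1 - J T f) := by
  rw [uOf, kids_root]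

lemma card_others {T : Finset (Fin n)} (hT : T ∈ triangles G) {f : Sym2 (Fin n)}
    (hf : f ∈ edgesOf T) : ((edgesOf T).erase f).card = 2 := by
  rw [card_erase_of_mem hf, card_edgesOf (card_of_mem_triangles hT)]

lemma abs_prod_sub_prod {α : Type*} (s : Finset α) (a b : α → ℝ)
    (ha : ∀ i ∈ s, 0 ≤ a i ∧ a i ≤ 1) (hb : ∀ i ∈ s, 0 ≤ b i ∧ b i ≤ 1) :
    |∏ i ∈ s, a i - ∏ i ∈ s, b i| ≤ ∑ i ∈ s, |a i - b i| := by
  induction s using Finset.induction with
  | empty => simp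
  | insert x s hx ih =>
    rw [prod_insert hx, prod_insert hx, sum_insert hx]
    have h := ih (fun i hi => ha i (mem_insert_of_mem hi)) fun i hi => hb i (mem_insert_of_mem hi)
    have h1 : 0 ≤ ∏ i ∈ s, a i := prod_nonneg fun i hi => (ha i (mem_insert_of_mem hi)).1
    have h2 : ∏ i ∈ s, a i ≤ 1 := Finset.prod_le_one (fun i hi => (ha i (mem_insert_of_mem hi)).1)
      fun i hi => (ha i (mem_insert_of_mem hi)).2
    have hx' := hb x (mem_insert_self x s)
    calc |a x * ∏ i ∈ s, a i - b x * ∏ i ∈ s, b i|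
        = |(a x - b x) * ∏ i ∈ s, a i + b x * (∏ i ∈ s, a i - ∏ i ∈ s, b i)| := by ring_nf
      _ ≤ |(a x - b x) * ∏ i ∈ s, a i| + |b x * (∏ i ∈ s, a i - ∏ i ∈ s, b i)| := abs_add_le _ _
      _ ≤ |a x - b x| + ∑ i ∈ s, |a i - b i| := by
        rw [abs_mul, abs_mul, abs_of_nonneg h1, abs_of_nonneg hx'.1]
        exact add_le_add (mul_le_of_le_one_right (abs_nonneg _) h2)
          ((mul_le_of_le_one_left (abs_nonneg _) hx'.2).trans h)

lemma sum_w_le (hc : Ctx G w N I) {c : ℕ} (h : c ≤ N) : ∑ i ∈ range c, w i ≤ 1 :=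
  (sum_le_sum_of_subset_of_nonneg (range_subset_range.2 h) fun i _ _ => hc.nn i).trans hc.sum

lemma w_le_one (hc : Ctx G w N I) {c : ℕ} (h : c < N) : w c ≤ 1 :=
  (single_le_sum (fun i _ => hc.nn i) (mem_range.2 (Nat.lt_succ_self c))).trans
    (sum_w_le hc (c := c + 1) h)

lemma val_mem (hc : Ctx G w N I) : ∀ (j : ℕ) (P : Finset (Fin n)) (f : Sym2 (Fin n)) (c : ℕ),
    c ≤ N → 0 ≤ Labels.val G w j P f c ∧ Labels.val G w j P f c ≤ 1
  | 0, P, f, c, _ => by simp [Labels.val]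
  | j + 1, P, f, c, h => by
    have key : ∀ T, 0 ≤ IX G w j T f c ∧ IX G w j T f c ≤ 1 := by
      intro T
      have hD : ∀ i ∈ range c, 0 ≤ D G w j T f (Labels.nxt j i) ∧
          D G w j T f (Labels.nxt j i) ≤ 1 := fun i hi => by
        have hi' : Labels.nxt j i ≤ N := (nxt_le_succ j i).trans (by
          have := mem_range.1 hi; omega)
        exact ⟨prod_nonneg fun g _ => (val_mem hc j T g _ hi').1,
          Finset.prod_le_one (fun g _ => (val_mem hc j T g _ hi').1)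
            fun g _ => (val_mem hc j T g _ hi').2⟩
      refine ⟨sum_nonneg fun i hi => mul_nonneg (hc.nn i) (hD i hi).1,
        (sum_le_sum fun i hi => ?_).trans (sum_w_le hc h)⟩
      exact mul_le_of_le_one_right (hc.nn i) (hD i hi).2
    rw [val_succ]
    exact ⟨prod_nonneg fun T _ => by linarith [key T],
      Finset.prod_le_one (fun T _ => by linarith [key T]) fun T _ => by linarith [key T]⟩

lemma D_mem (hc : Ctx G w N I) (j : ℕ) (T : Finset (Fin n)) (f : Sym2 (Fin n)) {c : ℕ}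
    (h : c ≤ N) : 0 ≤ D G w j T f c ∧ D G w j T f c ≤ 1 :=
  ⟨prod_nonneg fun g _ => (val_mem hc j T g c h).1,
    Finset.prod_le_one (fun g _ => (val_mem hc j T g c h).1) fun g _ => (val_mem hc j T g c h).2⟩

lemma IX_nonneg (hc : Ctx G w N I) (j : ℕ) (T : Finset (Fin n)) (f : Sym2 (Fin n)) {c : ℕ}
    (h : c ≤ N) : 0 ≤ IX G w j T f c :=
  sum_nonneg fun i hi => mul_nonneg (hc.nn i)
    (D_mem hc j T f ((nxt_le_succ j i).trans (by have := mem_range.1 hi; omega))).1

lemma IX_le_one (hc : Ctx G w N I) (j : ℕ) (T : Finset (Fin n)) (f : Sym2 (Fin n)) {c : ℕ}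
    (h : c ≤ N) : IX G w j T f c ≤ 1 :=
  (sum_le_sum fun i hi => mul_le_of_le_one_right (hc.nn i)
    (D_mem hc j T f ((nxt_le_succ j i).trans (by have := mem_range.1 hi; omega))).2).trans
    (sum_w_le hc h)

lemma IX_mono (hc : Ctx G w N I) (j : ℕ) (T : Finset (Fin n)) (f : Sym2 (Fin n)) {c c' : ℕ}
    (h : c ≤ c') (h' : c' ≤ N) : IX G w j T f c ≤ IX G w j T f c' :=
  sum_le_sum_of_subset_of_nonneg (range_subset_range.2 h) fun i hi _ => mul_nonneg (hc.nn i)
    (D_mem hc j T f ((nxt_le_succ j i).trans (by have := mem_range.1 hi; omega))).1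

lemma val_antitone (hc : Ctx G w N I) (j : ℕ) (P : Finset (Fin n)) (f : Sym2 (Fin n)) {c c' : ℕ}
    (h : c ≤ c') (h' : c' ≤ N) : Labels.val G w j P f c' ≤ Labels.val G w j P f c := by
  cases j with
  | zero => simp [Labels.val]
  | succ j =>
    rw [val_succ, val_succ]
    exact Finset.prod_le_prod (fun T _ => by linarith [IX_le_one hc j T f h'])
      fun T _ => by linarith [IX_mono hc j T f h h']

lemma D_antitone (hc : Ctx G w N I) (j : ℕ) (T : Finset (Fin n)) (f : Sym2 (Fin n)) {c c' : ℕ}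
    (h : c ≤ c') (h' : c' ≤ N) : D G w j T f c' ≤ D G w j T f c :=
  Finset.prod_le_prod (fun g _ => (val_mem hc j T g c' h').1) fun g _ => val_antitone hc j T g h h'

lemma qOf_mem (hc : Ctx G w N I) {c : ℕ} (h : c ≤ N) (t : Finset (Fin n)) (f : Sym2 (Fin n)) :
    0 ≤ qOf G (I c) t f ∧ qOf G (I c) t f ≤ 1 := by
  rw [qOf_eq]
  have key : ∀ T ∈ Labels.kids G t f, 0 ≤ I c T f ∧ I c T f ≤ 1 / 30 := fun T hT =>
    hc.small c h T (mem_kids hT).1 f (mem_kids hT).2
  exact ⟨prod_nonneg fun T hT => by linarith [key T hT],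
    Finset.prod_le_one (fun T hT => by linarith [key T hT]) fun T hT => by linarith [key T hT]⟩

lemma rate_mem (hc : Ctx G w N I) {c : ℕ} (h : c ≤ N) (t : Finset (Fin n)) (f : Sym2 (Fin n)) :
    0 ≤ rate G (I c) t f ∧ rate G (I c) t f ≤ 1 :=
  ⟨prod_nonneg fun g _ => (qOf_mem hc h t g).1,
    Finset.prod_le_one (fun g _ => (qOf_mem hc h t g).1) fun g _ => (qOf_mem hc h t g).2⟩

lemma I_le_succ (hc : Ctx G w N I) {c : ℕ} (h : c < N) (t : Finset (Fin n)) (f : Sym2 (Fin n)) :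
    I c t f ≤ I (c + 1) t f ∧ I (c + 1) t f ≤ I c t f + w c := by
  rw [hc.succ]
  have h1 := rate_mem hc h.le t f
  exact ⟨le_add_of_nonneg_right (mul_nonneg (hc.nn c) h1.1),
    by linarith [mul_le_of_le_one_right (hc.nn c) h1.2]⟩

lemma qOf_antitone (hc : Ctx G w N I) {c c' : ℕ} (h : c ≤ c') (h' : c' ≤ N)
    (t : Finset (Fin n)) (f : Sym2 (Fin n)) : qOf G (I c') t f ≤ qOf G (I c) t f := by
  induction c', h using Nat.le_induction with
  | base => rfl
  | succ c' _ ih =>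
    refine le_trans ?_ (ih (Nat.le_of_succ_le h'))
    rw [qOf_eq, qOf_eq]
    exact Finset.prod_le_prod (fun T hT => by
      linarith [hc.small (c' + 1) h' T (mem_kids hT).1 f (mem_kids hT).2])
      fun T _ => by linarith [(I_le_succ hc h' T f).1]

lemma rate_antitone (hc : Ctx G w N I) {c c' : ℕ} (h : c ≤ c') (h' : c' ≤ N)
    (t : Finset (Fin n)) (f : Sym2 (Fin n)) : rate G (I c') t f ≤ rate G (I c) t f :=
  Finset.prod_le_prod (fun g _ => (qOf_mem hc h' t g).1) fun g _ => qOf_antitone hc h h' t g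

lemma uOf_mem (hc : Ctx G w N I) {c : ℕ} (h : c ≤ N) (f : Sym2 (Fin n)) :
    0 ≤ uOf G (I c) f ∧ uOf G (I c) f ≤ 1 := by
  rw [uOf_eq, ← qOf_eq]
  exact qOf_mem hc h ∅ f

lemma uOf_antitone (hc : Ctx G w N I) {c c' : ℕ} (h : c ≤ c') (h' : c' ≤ N) (f : Sym2 (Fin n)) :
    uOf G (I c') f ≤ uOf G (I c) f := by
  rw [uOf_eq, uOf_eq, ← qOf_eq, ← qOf_eq]
  exact qOf_antitone hc h h' ∅ f

lemma rate_shift (hc : Ctx G w N I) {j c : ℕ} {Md δ : ℝ} (h : c < N)
    (hdeg : ∀ g, ((Labels.kids G ∅ g).card : ℝ) ≤ Md) (hw : w c ≤ δ)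
    {T : Finset (Fin n)} (hT : T ∈ triangles G) {f : Sym2 (Fin n)} (hf : f ∈ edgesOf T) :
    |rate G (I (Labels.nxt j c)) T f - rate G (I c) T f| ≤ 2 * (Md * δ) := by
  have hδ : 0 ≤ δ := (hc.nn c).trans hw
  have hM : 0 ≤ Md := (Nat.cast_nonneg _).trans (hdeg f)
  unfold Labels.nxt
  split
  · simpa using (show (0:ℝ) ≤ 2 * (Md * δ) by positivity)
  refine (abs_prod_sub_prod _ _ _ (fun g _ => qOf_mem hc h T g)
    fun g _ => qOf_mem hc h.le T g).trans ?_
  refine (sum_le_card_nsmul _ _ (Md * δ) fun g _ => ?_).trans (le_of_eq ?_)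
  · rw [qOf_eq, qOf_eq]
    refine (abs_prod_sub_prod _ _ _ (fun t ht => ?_) fun t ht => ?_).trans ?_
    · have := hc.small (c + 1) h t (mem_kids ht).1 g (mem_kids ht).2
      constructor <;> linarith
    · have := hc.small c h.le t (mem_kids ht).1 g (mem_kids ht).2
      constructor <;> linarith
    refine (sum_le_card_nsmul _ _ δ fun t _ => ?_).trans ?_
    · have := I_le_succ hc h t g
      rw [abs_le]; constructor <;> linarith
    · rw [nsmul_eq_mul]
      exact mul_le_mul_of_nonneg_right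
        ((Nat.cast_le.2 (card_le_card (kids_subset_root T g))).trans (hdeg g)) hδ
  · rw [card_others hT hf, nsmul_eq_mul, Nat.cast_two]

/-- The difference of the two hazards of one child. -/
lemma hazard_sub (hc : Ctx G w N I) {j c : ℕ} {Md δ : ℝ} (h : c < N)
    (hdeg : ∀ g, ((Labels.kids G ∅ g).card : ℝ) ≤ Md) (hw : ∀ i < N, w i ≤ δ)
    {T : Finset (Fin n)} (hT : T ∈ triangles G) {f : Sym2 (Fin n)} (hf : f ∈ edgesOf T)
    (hX : IX G w j T f c ≤ 1 / 30) :
    |w c * D G w j T f (Labels.nxt j c) / (1 - IX G w j T f c)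
      - w c * rate G (I c) T f / (1 - I c T f)|
      ≤ w c * (11 / 10) * C G w I j (2 * (Md * δ)) T f c := by
  have hI := hc.small c h.le T hT f hf
  have hX0 := IX_nonneg hc j T f (c := c) h.le
  obtain ⟨r, hr⟩ : ∃ r, r = rate G (I c) T f := ⟨_, rfl⟩
  obtain ⟨x, hx⟩ : ∃ x, x = D G w j T f (Labels.nxt j c) := ⟨_, rfl⟩
  have hr1 : 0 ≤ r ∧ r ≤ 1 := hr ▸ rate_mem hc h.le T f
  have dist : ∀ l < N, |D G w j T f (Labels.nxt j l) - rate G (I l) T f|
      ≤ A G w I j T f (Labels.nxt j l) + 2 * (Md * δ) := fun l hl => by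
    refine (abs_sub_le _ (rate G (I (Labels.nxt j l)) T f) _).trans ?_
    exact add_le_add le_rfl (rate_shift hc hl hdeg (hw l hl) hT hf)
  have hI' : ∀ m ≤ c, I m T f = ∑ l ∈ range m, w l * rate G (I l) T f := by
    intro m _
    induction m with
    | zero => simp [hc.zero]
    | succ m ih => rw [hc.succ, sum_range_succ, ih (by omega)]
  have hd : |IX G w j T f c - I c T f| ≤
      ∑ l ∈ range c, w l * A G w I j T f (Labels.nxt j l) + 2 * (Md * δ) := by
    rw [hI' c le_rfl, IX, ← sum_sub_distrib]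
    refine (abs_sum_le_sum_abs _ _).trans ?_
    refine (sum_le_sum (g := fun l => w l * (A G w I j T f (Labels.nxt j l) + 2 * (Md * δ)))
      fun l hl => ?_).trans ?_
    · rw [← mul_sub, abs_mul, abs_of_nonneg (hc.nn l)]
      exact mul_le_mul_of_nonneg_left (dist l ((mem_range.1 hl).trans h)) (hc.nn l)
    · simp only [mul_add, sum_add_distrib, ← sum_mul]
      have hδ : 0 ≤ 2 * (Md * δ) := by
        have h1 : 0 ≤ δ := (hc.nn c).trans (hw c h)
        have h2 : 0 ≤ Md := (Nat.cast_nonneg _).trans (hdeg f)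
        positivity
      exact add_le_add le_rfl (mul_le_of_le_one_left hδ (sum_w_le hc h.le))
  have hA := dist c h
  rw [← hx, ← hr] at hA
  obtain ⟨p, hp⟩ : ∃ p, p = IX G w j T f c := ⟨_, rfl⟩
  obtain ⟨q, hq⟩ : ∃ q, q = I c T f := ⟨_, rfl⟩
  rw [← hp] at hX hX0 hd
  rw [← hq] at hI hd
  rw [← hp, ← hq, ← hx, ← hr, mul_div_assoc, mul_div_assoc, ← mul_sub, abs_mul,
    abs_of_nonneg (hc.nn c), mul_assoc]
  refine mul_le_mul_of_nonneg_left ?_ (hc.nn c)
  have e : x / (1 - p) - r / (1 - q) = (x - r) / (1 - p) + r / ((1 - p) * (1 - q)) * (p - q) := by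
    have h1 : (1 : ℝ) - p ≠ 0 := by linarith
    have h2 : (1 : ℝ) - q ≠ 0 := by linarith
    field_simp
    ring
  rw [e]
  refine (abs_add_le _ _).trans ?_
  rw [abs_div, abs_mul, abs_of_pos (show (0 : ℝ) < 1 - p by linarith),
    abs_of_nonneg (div_nonneg hr1.1 (mul_nonneg (by linarith) (by linarith)))]
  have hpq : r / ((1 - p) * (1 - q)) ≤ 11 / 10 := by
    have h29 : (29 : ℝ) / 30 * (29 / 30) ≤ (1 - p) * (1 - q) :=
      mul_le_mul (by linarith) (by linarith) (by norm_num) (by linarith)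
    refine (div_le_div₀ zero_le_one hr1.2 (by norm_num) h29).trans (by norm_num)
  have h1 : |x - r| / (1 - p) ≤ 11 / 10 * |x - r| := by
    rw [div_le_iff₀ (by linarith)]
    nlinarith [abs_nonneg (x - r)]
  have h2 := mul_le_mul hpq hd (abs_nonneg _) (by norm_num)
  unfold C
  nlinarith [h1, h2, hA]

/-- One factor of a step. -/
lemma one_sub_add_eq {p q : ℝ} (hp : p < 1) : 1 - (p + q) = (1 - p) * (1 - q / (1 - p)) := by
  have : (1 : ℝ) - p ≠ 0 := by linarith
  field_simp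
  ring

/-- The step of a single edge, with the estimate for its factor. -/
lemma factor_sub (hc : Ctx G w N I) {j c : ℕ} {Md δ : ℝ} (h : c < N)
    (hdeg : ∀ g, ((Labels.kids G ∅ g).card : ℝ) ≤ Md) (hw : ∀ i < N, w i ≤ δ) (hδ : δ ≤ 1 / 2)
    (hX : ∀ T ∈ triangles G, ∀ f ∈ edgesOf T, IX G w j T f c ≤ 1 / 30)
    (P : Finset (Fin n)) (f : Sym2 (Fin n)) :
    ∃ a b : ℝ, (0 ≤ a ∧ a ≤ 1) ∧ (0 ≤ b ∧ b ≤ 1) ∧
      Labels.val G w (j + 1) P f (c + 1) = Labels.val G w (j + 1) P f c * a ∧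
      qOf G (I (c + 1)) P f = qOf G (I c) P f * b ∧
      |a - b| ≤ w c * (11 / 10) * ∑ T ∈ Labels.kids G P f, C G w I j (2 * (Md * δ)) T f c := by
  have key : ∀ T ∈ Labels.kids G P f, ∀ z : ℝ, 0 ≤ z → z ≤ 1 → ∀ p : ℝ, p ≤ 1 / 30 →
      0 ≤ 1 - w c * z / (1 - p) ∧ 1 - w c * z / (1 - p) ≤ 1 := by
    intro T _ z hz0 hz1 p hp
    have h1 : (0 : ℝ) < 1 - p := by linarith
    have h2 : w c * z ≤ 1 - p := by nlinarith [hw c h, hc.nn c]
    refine ⟨sub_nonneg.2 ((div_le_one h1).2 h2), ?_⟩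
    linarith [div_nonneg (mul_nonneg (hc.nn c) hz0) h1.le]
  have ha : ∀ T ∈ Labels.kids G P f,
      0 ≤ 1 - w c * D G w j T f (Labels.nxt j c) / (1 - IX G w j T f c) ∧
        1 - w c * D G w j T f (Labels.nxt j c) / (1 - IX G w j T f c) ≤ 1 := fun T hT =>
    key T hT _ (D_mem hc j T f ((nxt_le_succ j c).trans h)).1
      (D_mem hc j T f ((nxt_le_succ j c).trans h)).2 _ (hX T (mem_kids hT).1 f (mem_kids hT).2)
  have hb : ∀ T ∈ Labels.kids G P f,
      0 ≤ 1 - w c * rate G (I c) T f / (1 - I c T f) ∧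
        1 - w c * rate G (I c) T f / (1 - I c T f) ≤ 1 := fun T hT =>
    key T hT _ (rate_mem hc h.le T f).1 (rate_mem hc h.le T f).2 _
      (hc.small c h.le T (mem_kids hT).1 f (mem_kids hT).2).2
  refine ⟨∏ T ∈ Labels.kids G P f, (1 - w c * D G w j T f (Labels.nxt j c) / (1 - IX G w j T f c)),
    ∏ T ∈ Labels.kids G P f, (1 - w c * rate G (I c) T f / (1 - I c T f)),
    ⟨prod_nonneg fun T hT => (ha T hT).1, Finset.prod_le_one (fun T hT => (ha T hT).1)
      fun T hT => (ha T hT).2⟩,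
    ⟨prod_nonneg fun T hT => (hb T hT).1, Finset.prod_le_one (fun T hT => (hb T hT).1)
      fun T hT => (hb T hT).2⟩, ?_, ?_, ?_⟩
  · rw [val_succ, val_succ, ← prod_mul_distrib]
    refine prod_congr rfl fun T hT => ?_
    rw [IX_succ, one_sub_add_eq]
    linarith [hX T (mem_kids hT).1 f (mem_kids hT).2]
  · rw [qOf_eq, qOf_eq, ← prod_mul_distrib]
    refine prod_congr rfl fun T hT => ?_
    rw [hc.succ, one_sub_add_eq]
    linarith [(hc.small c h.le T (mem_kids hT).1 f (mem_kids hT).2).2]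
  · refine (abs_prod_sub_prod _ _ _ ha hb).trans ?_
    rw [mul_sum]
    refine sum_le_sum fun T hT => ?_
    rw [sub_sub_sub_cancel_left, abs_sub_comm]
    exact hazard_sub hc h hdeg hw (mem_kids hT).1 (mem_kids hT).2
      (hX T (mem_kids hT).1 f (mem_kids hT).2)

/-- The step inequality at a directed triangle. -/
theorem A_step (hc : Ctx G w N I) {j c : ℕ} {Md δ : ℝ} (h : c < N)
    (hdeg : ∀ g, ((Labels.kids G ∅ g).card : ℝ) ≤ Md) (hw : ∀ i < N, w i ≤ δ) (hδ : δ ≤ 1 / 2)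
    (hX : ∀ T ∈ triangles G, ∀ f ∈ edgesOf T, IX G w j T f c ≤ 1 / 30)
    (T : Finset (Fin n)) (f : Sym2 (Fin n)) :
    A G w I (j + 1) T f (c + 1) ≤ A G w I (j + 1) T f c +
      w c * (11 / 10) * rate G (I c) T f *
        ∑ g ∈ (edgesOf T).erase f, ∑ T' ∈ Labels.kids G T g, C G w I j (2 * (Md * δ)) T' g c := by
  choose a b ha hb hval hq hab using fun g => factor_sub hc h hdeg hw hδ hX T g
  have hD : D G w (j + 1) T f (c + 1) = D G w (j + 1) T f c * ∏ g ∈ (edgesOf T).erase f, a g := by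
    rw [D, D, ← prod_mul_distrib]
    exact prod_congr rfl fun g _ => hval g
  have hR : rate G (I (c + 1)) T f = rate G (I c) T f * ∏ g ∈ (edgesOf T).erase f, b g := by
    rw [rate, rate, ← prod_mul_distrib]
    exact prod_congr rfl fun g _ => hq g
  unfold A
  rw [hD, hR]
  obtain ⟨d, hd⟩ : ∃ d, d = D G w (j + 1) T f c := ⟨_, rfl⟩
  obtain ⟨r, hr⟩ : ∃ r, r = rate G (I c) T f := ⟨_, rfl⟩
  rw [← hd, ← hr]
  have hr0 : 0 ≤ r := hr ▸ (rate_mem hc h.le T f).1
  have e : ∀ u v : ℝ, d * u - r * v = (d - r) * u + r * (u - v) := fun u v => by ring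
  rw [e]
  refine (abs_add_le _ _).trans (add_le_add ?_ ?_)
  · rw [abs_mul, abs_of_nonneg (prod_nonneg fun g _ => (ha g).1)]
    exact mul_le_of_le_one_right (abs_nonneg _)
      (Finset.prod_le_one (fun g _ => (ha g).1) fun g _ => (ha g).2)
  · rw [abs_mul, abs_of_nonneg hr0, mul_comm (w c * (11 / 10)) r, mul_assoc, mul_sum]
    exact mul_le_mul_of_nonneg_left ((abs_prod_sub_prod _ _ _ (fun g _ => ha g)
      fun g _ => hb g).trans (sum_le_sum fun g _ => hab g)) hr0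

/-- The step inequality at a root. -/
theorem root_step (hc : Ctx G w N I) {j c : ℕ} {Md δ : ℝ} (h : c < N)
    (hdeg : ∀ g, ((Labels.kids G ∅ g).card : ℝ) ≤ Md) (hw : ∀ i < N, w i ≤ δ) (hδ : δ ≤ 1 / 2)
    (hX : ∀ T ∈ triangles G, ∀ f ∈ edgesOf T, IX G w j T f c ≤ 1 / 30) (f : Sym2 (Fin n)) :
    |Labels.val G w (j + 1) ∅ f (c + 1) - uOf G (I (c + 1)) f| ≤
      |Labels.val G w (j + 1) ∅ f c - uOf G (I c) f| +
        w c * (11 / 10) * uOf G (I c) f *
          ∑ T ∈ Labels.kids G ∅ f, C G w I j (2 * (Md * δ)) T f c := by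
  obtain ⟨a, b, ha, hb, hval, hq, hab⟩ := factor_sub hc h hdeg hw hδ hX ∅ f
  rw [qOf_eq, qOf_eq, ← uOf_eq, ← uOf_eq] at hq
  rw [hval, hq]
  obtain ⟨d, hd⟩ : ∃ d, d = Labels.val G w (j + 1) ∅ f c := ⟨_, rfl⟩
  obtain ⟨r, hr⟩ : ∃ r, r = uOf G (I c) f := ⟨_, rfl⟩
  rw [← hd, ← hr]
  have hr0 : 0 ≤ r := hr ▸ (uOf_mem hc h.le f).1
  rw [show d * a - r * b = (d - r) * a + r * (a - b) by ring]
  refine (abs_add_le _ _).trans (add_le_add ?_ ?_)
  · rw [abs_mul, abs_of_nonneg ha.1]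
    exact mul_le_of_le_one_right (abs_nonneg _) ha.2
  · rw [abs_mul, abs_of_nonneg hr0, mul_comm (w c * (11 / 10)) r, mul_assoc]
    exact mul_le_mul_of_nonneg_left hab hr0

lemma val_zero_cell (j : ℕ) (P : Finset (Fin n)) (f : Sym2 (Fin n)) :
    Labels.val G w j P f 0 = 1 := by
  cases j <;> simp [Labels.val]

lemma qOf_zero_cell (hc : Ctx G w N I) (t : Finset (Fin n)) (f : Sym2 (Fin n)) :
    qOf G (I 0) t f = 1 := by
  simp [qOf, hc.zero]

lemma A_zero_cell (hc : Ctx G w N I) (j : ℕ) (T : Finset (Fin n)) (f : Sym2 (Fin n)) :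
    A G w I j T f 0 = 0 := by
  simp [A, D, rate, val_zero_cell, qOf_zero_cell hc]

end Vale.Agent.P046.Full.Iter
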